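import Vale.Agent.P076.Main.Top
import Vale.Agent.P076.H523.SlabT

/-! # P076 / MAIN : Carleson's problem at the endpoint `s = 1/3` in the plane -/

set_option autoImplicit false

open MeasureTheory

namespace Vale.Agent.P076.Main

open Vale.Agent.P076

/-- the thick slab, lossless -/
theorem stTS : ASM.StTS := ts_of H523.slab

/-- **the endpoint theorem in the plane** -/
theorem endpoint (f g : (Fin 2 → ℝ) → ℂ) (hfg : IsFourierPair f g)
    (hf : Integrable (fun ξ => (1 + nrm ξ ^ 2) ^ critExp 2 * ‖g ξ‖ ^ 2)) :
    H791.ConvergesAE f g ∧ H791.ConvergesStrongly f g :=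
  top stTS f g hfg hf

end Vale.Agent.P076.Main
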