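import Vale.Agent.P076.H618.Final
import Vale.Agent.P076.ASM.Main
import Vale.Agent.P076.H780.Kpg
import Vale.Agent.P076.BG.Top
import Vale.Agent.P076.H429.LW
import Vale.Agent.P076.H732.LW1f
import Vale.Agent.P076.H874.SelFin
import Vale.Agent.P076.H200.RSGF
import Vale.Agent.P076.H245.FinTop
import Vale.Agent.P076.H645.Geo
import Vale.Agent.P076.H803.Win
import Vale.Agent.P076.NS.Fin
import Vale.Agent.P076.H879.Fin
import Vale.Agent.P076.H879.Sc
import Vale.Agent.P076.H926.Fin
import Vale.Agent.P076.H322.ST
import Vale.Agent.P076.H223.Br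
import Vale.Agent.P076.H629.Top
import Vale.Agent.P076.H23.Nar
import Vale.Agent.P076.H523.Spec
import Vale.Agent.P076.H457.Tay
import Vale.Agent.P076.H281.SlEn
import Vale.Agent.P076.H281.SlPar
import Vale.Agent.P076.H249.CR
import Vale.Agent.P076.H21.Low
import Vale.Agent.P076.H551.YLoc

/-! # P076 / MAIN : the top assembly from the statements of the blocks (helper780, for the captain helper243)

Every block which is not yet a theorem is a hypothesis `h…` (owner in the comment); the others are applied.
`top` : the positive answer for `n = 2` (endpoint `s = 1/3`). -/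

set_option autoImplicit false

open MeasureTheory

namespace Vale.Agent.P076.Main

open Vale.Agent.P076

/-- the window lemma -/
theorem stWIN : BG.StWIN := H803.stWIN (H245.fin_of_geo H645.stGEO)

theorem stLWe : NS.StLWe := H429.lwe H732.stLW1

/-- the broad estimate without gain -/
theorem stTRIe : NS.StTRIe := NS.tri_of stLWe

/-- the broad estimate with gain -/
theorem stBG : NS.StBG := NS.bg_of stLWe (BG.stTG'_of H732.stLW1 stWIN)

theorem stKPG : H322.StKPG := H780.kpg_of H926.stKP1 (H926.stKP2 stTRIe stBG) H879.stSTEP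

/-- no thick plate: power gain, function level -/
theorem stNSf : ASM.StNSf := H223.br (H322.st stKPG (H879.sc_of stKPG))

/-- the thick slab -/
theorem ts_of
    (h7 : H523.StSLAB) :                                -- 523, 429
    ASM.StTS :=
  H23.stNAR (H551.yloc (h7 H21.stLOW1 H21.stLOW2 H457.stTAY H281.stEN H281.stPAR H249.stCR))

/-- **the positive answer for `n = 2`** -/
theorem top (hTS : ASM.StTS) (f g : (Fin 2 → ℝ) → ℂ) (hfg : IsFourierPair f g)
    (hf : Integrable (fun ξ => (1 + nrm ξ ^ 2) ^ critExp 2 * ‖g ξ‖ ^ 2)) :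
    H791.ConvergesAE f g ∧ H791.ConvergesStrongly f g := by
  have h : H791.ConvergesStrongly f g := H618.q1_of_StS (ASM.stASM hTS stNSf) f g hfg (by
    have e : critExp 2 = 1 / 3 := by norm_num [critExp]
    rw [← e]; exact hf)
  exact ⟨h.convergesAE, h⟩

end Vale.Agent.P076.Main
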